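import Mathlib

/-!
The random partition of Calinescu, Karloff and Rabani for a finite metric space, with finitely
many equally likely outcomes.
-/

open Finset
open scoped Classical

noncomputable section

namespace Vale.Agent.P249

variable {V : Type*} [Fintype V]

omit [Fintype V] in
lemma sum_inv_rank (f : V → ℝ) : ∀ (k : ℕ) (A : Finset V), A.card = k →
    ∑ w ∈ A, ((A.filter fun w' => f w' ≤ f w).card : ℝ)⁻¹ ≤ (harmonic k : ℝ) := by
  intro k
  induction k with
  | zero => intro A hA; rw [card_eq_zero.1 hA]; simp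
  | succ k ih =>
    intro A hA
    obtain ⟨m, hm, hmax⟩ := exists_max_image A f (card_pos.1 (by omega))
    rw [← add_sum_erase A _ hm, harmonic_succ, Rat.cast_add, add_comm]
    refine add_le_add ?_ ?_
    · refine (sum_le_sum fun w hw => ?_).trans (ih (A.erase m) (by rw [card_erase_of_mem hm]; omega))
      refine inv_anti₀ ?_ (by exact_mod_cast card_le_card (filter_subset_filter _ (erase_subset _ _)))
      exact_mod_cast card_pos.2 ⟨w, (mem_filter (p := fun w' => f w' ≤ f w)).2 ⟨hw, le_rfl⟩⟩
    · rw [show (A.filter fun w' => f w' ≤ f m) = A from filter_true_of_mem hmax, hA]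
      simp

/-- among all orderings, a given member of `S` comes first in a `1/|S|` fraction -/
lemma card_first (S : Finset V) {w : V} (hw : w ∈ S) :
    ((univ.filter fun e : V ≃ Fin (Fintype.card V) => ∀ s ∈ S, e w ≤ e s).card : ℝ)
      = Fintype.card (V ≃ Fin (Fintype.card V)) / S.card := by
  set first : V → Finset (V ≃ Fin (Fintype.card V)) := fun v =>
    univ.filter fun e => ∀ s ∈ S, e v ≤ e s with hfirst
  have key : ∀ v ∈ S, (first v).card = (first w).card := by
    intro v hv
    refine card_bij (fun e _ => (Equiv.swap v w).trans e) ?_ ?_ ?_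
    · intro e he
      simp only [hfirst, mem_filter, mem_univ, true_and, Equiv.trans_apply] at he ⊢
      intro s hs
      rw [Equiv.swap_apply_right]
      refine he _ ?_
      by_cases h1 : s = v
      · subst h1; rw [Equiv.swap_apply_left]; exact hw
      by_cases h2 : s = w
      · subst h2; rw [Equiv.swap_apply_right]; exact hv
      rw [Equiv.swap_apply_of_ne_of_ne h1 h2]; exact hs
    · intro e _ e' _ h
      have := congrArg (fun t => (Equiv.swap v w).trans t) h
      simpa [← Equiv.trans_assoc] using this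
    · intro e he
      simp only [hfirst, mem_filter, mem_univ, true_and] at he
      refine ⟨(Equiv.swap v w).trans e, ?_, by simp [← Equiv.trans_assoc]⟩
      simp only [hfirst, mem_filter, mem_univ, true_and, Equiv.trans_apply]
      intro s hs
      rw [Equiv.swap_apply_left]
      refine he _ ?_
      by_cases h1 : s = v
      · subst h1; rw [Equiv.swap_apply_left]; exact hw
      by_cases h2 : s = w
      · subst h2; rw [Equiv.swap_apply_right]; exact hv
      rw [Equiv.swap_apply_of_ne_of_ne h1 h2]; exact hs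
  have hunion : S.biUnion first = univ := by
    refine eq_univ_of_forall fun e => mem_biUnion.2 ?_
    obtain ⟨v, hv, hmin⟩ := exists_min_image S e ⟨w, hw⟩
    exact ⟨v, hv, mem_filter.2 ⟨mem_univ _, hmin⟩⟩
  have hdis : (S : Set V).PairwiseDisjoint first := by
    intro a ha b hb hab
    rw [Function.onFun, disjoint_left]
    intro e hea heb
    exact hab (e.injective (le_antisymm ((mem_filter.1 hea).2 b hb) ((mem_filter.1 heb).2 a ha)))
  have hsum : S.card * (first w).card = Fintype.card (V ≃ Fin (Fintype.card V)) := by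
    rw [← card_univ (α := V ≃ Fin (Fintype.card V)), ← hunion, card_biUnion hdis, sum_congr rfl key,
      sum_const, smul_eq_mul]
  have hS : (S.card : ℝ) ≠ 0 := by exact_mod_cast (card_pos.2 ⟨w, hw⟩).ne'
  rw [eq_div_iff hS, mul_comm]
  exact_mod_cast hsum

/-- Random partitions: `P (e, j) y` is the centre of the part of `y`. Every part has radius at
most `Δ / 2`, and a ball of radius `r` is cut with probability at most
`(8 r / Δ + 1 / N) (1 + log n)`. -/
theorem random_partition (D : V → V → ℝ) (D0 : ∀ x, D x x = 0) (Dsymm : ∀ x y, D x y = D y x)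
    (Dtri : ∀ x y z, D x z ≤ D x y + D y z) {Δ : ℝ} (hΔ : 0 < Δ) {N : ℕ} (hN : 0 < N) :
    ∃ P : ((V ≃ Fin (Fintype.card V)) × Fin N) → V → V,
      (∀ k y, D y (P k y) ≤ Δ / 2) ∧
      ∀ (x : V) (r : ℝ), 0 ≤ r →
        ((univ.filter fun k => ∃ y, D x y ≤ r ∧ P k y ≠ P k x).card : ℝ) ≤
          (8 * r / Δ + 1 / N) * (1 + Real.log (Fintype.card V))
            * Fintype.card ((V ≃ Fin (Fintype.card V)) × Fin N) := by
  set R : Fin N → ℝ := fun j => Δ / 4 + (j : ℕ) * (Δ / (4 * N)) with hR
  have hNr : (0 : ℝ) < N := by exact_mod_cast hN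
  have hR0 : ∀ j, 0 ≤ R j ∧ R j ≤ Δ / 2 := by
    intro j
    have h1 : ((j : ℕ) : ℝ) ≤ N := by exact_mod_cast j.2.le
    have h2 : ((j : ℕ) : ℝ) * (Δ / (4 * N)) ≤ Δ / 4 := by
      calc ((j : ℕ) : ℝ) * (Δ / (4 * N)) ≤ N * (Δ / (4 * N)) :=
            mul_le_mul_of_nonneg_right h1 (by positivity)
        _ = Δ / 4 := by field_simp
    simp only [hR]
    constructor
    · positivity
    · linarith
  have hne : ∀ j y, (univ.filter fun w => D y w ≤ R j).Nonempty := fun j y =>
    ⟨y, mem_filter.2 ⟨mem_univ _, by rw [D0]; exact (hR0 j).1⟩⟩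
  choose c hc hcmin using fun (k : (V ≃ Fin (Fintype.card V)) × Fin N) y =>
    exists_min_image _ k.1 (hne k.2 y)
  refine ⟨c, fun k y => ((mem_filter.1 (hc k y)).2).trans (hR0 k.2).2, fun x r hr => ?_⟩
  set S : V → Finset V := fun w => univ.filter fun w' => D x w' ≤ D x w with hS
  set E : V → Finset (V ≃ Fin (Fintype.card V)) := fun w =>
    univ.filter fun e => ∀ s ∈ S w, e w ≤ e s with hE
  set J : V → Finset (Fin N) := fun w =>
    univ.filter fun j => R j < D x w + r ∧ D x w ≤ R j + r with hJ
  -- a cut ball has a witness centre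
  have hsub : (univ.filter fun k => ∃ y, D x y ≤ r ∧ c k y ≠ c k x)
      ⊆ univ.biUnion fun w => E w ×ˢ J w := by
    rintro ⟨e, j⟩ hk
    obtain ⟨y, hy, hne'⟩ := (mem_filter.1 hk).2
    obtain ⟨w, hw, hwmin⟩ := exists_min_image (univ.filter fun w => D x w ≤ R j + r) e
      ⟨x, mem_filter.2 ⟨mem_univ _, by rw [D0]; linarith [(hR0 j).1]⟩⟩
    have hwd := (mem_filter.1 hw).2
    refine mem_biUnion.2 ⟨w, mem_univ _, mem_product.2 ⟨?_, ?_⟩⟩
    · refine mem_filter.2 ⟨mem_univ _, fun s hs => hwmin s (mem_filter.2 ⟨mem_univ _, ?_⟩)⟩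
      exact (mem_filter.1 hs).2.trans hwd
    · refine mem_filter.2 ⟨mem_univ _, ?_, hwd⟩
      by_contra hlt
      push Not at hlt
      have same : ∀ z, D x z ≤ r → c (e, j) z = w := by
        intro z hz
        have h1 : D z w ≤ R j := by
          have := Dtri z x w
          rw [Dsymm z x] at this
          linarith
        have h2 : D x (c (e, j) z) ≤ R j + r := by
          have := Dtri x z (c (e, j) z)
          have h3 : D z (c (e, j) z) ≤ R j := (mem_filter.1 (hc (e, j) z)).2
          linarith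
        exact e.injective (le_antisymm (hcmin (e, j) z w (mem_filter.2 ⟨mem_univ _, h1⟩))
          (hwmin _ (mem_filter.2 ⟨mem_univ _, h2⟩)))
      exact hne' ((same y hy).trans (same x (by rw [D0]; exact hr)).symm)
  -- few admissible radii for each centre
  have hJc : ∀ w, ((J w).card : ℝ) ≤ 8 * r / Δ * N + 1 := by
    intro w
    rcases (J w).eq_empty_or_nonempty with h | h
    · rw [h, card_empty, Nat.cast_zero]; positivity
    obtain ⟨a, ha, hamin⟩ := exists_min_image (J w) (fun j => (j : ℕ)) h
    obtain ⟨b, hb, hbmax⟩ := exists_max_image (J w) (fun j => (j : ℕ)) h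
    have hab : (a : ℕ) ≤ (b : ℕ) := hamin b hb
    have hcard : (J w).card ≤ (b : ℕ) - (a : ℕ) + 1 := by
      calc (J w).card = ((J w).image fun j : Fin N => (j : ℕ)).card :=
            (card_image_of_injective _ Fin.val_injective).symm
        _ ≤ (Icc (a : ℕ) b).card := card_le_card (image_subset_iff.2 fun j hj =>
            mem_Icc.2 ⟨hamin j hj, hbmax j hj⟩)
        _ ≤ _ := by rw [Nat.card_Icc]; omega
    have h1 := (mem_filter.1 ha).2.2
    have h2 := (mem_filter.1 hb).2.1
    simp only [hR] at h1 h2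
    have h3 : (((b : ℕ) : ℝ) - (a : ℕ)) * (Δ / (4 * N)) ≤ 2 * r := by
      rw [sub_mul]; linarith
    rw [← le_div_iff₀ (by positivity)] at h3
    have h4 : 2 * r / (Δ / (4 * N)) = 8 * r / Δ * N := by field_simp; ring
    have h5 : ((J w).card : ℝ) ≤ ((b : ℕ) : ℝ) - (a : ℕ) + 1 := by
      rw [← Nat.cast_sub hab]; exact_mod_cast hcard
    linarith
  set T : ℝ := (Fintype.card (V ≃ Fin (Fintype.card V)) : ℝ) with hT
  have hEc : ∀ w, ((E w).card : ℝ) = T * ((S w).card : ℝ)⁻¹ := fun w => by
    rw [hE, ← div_eq_mul_inv]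
    exact card_first (S w) (mem_filter.2 ⟨mem_univ _, le_rfl⟩)
  have hsum : ∑ w, ((S w).card : ℝ)⁻¹ ≤ 1 + Real.log (Fintype.card V) :=
    (sum_inv_rank (D x) _ univ rfl).trans (harmonic_le_one_add_log _)
  calc ((univ.filter fun k => ∃ y, D x y ≤ r ∧ c k y ≠ c k x).card : ℝ)
      ≤ ∑ w, ((E w ×ˢ J w).card : ℝ) := by
        exact_mod_cast (card_le_card hsub).trans card_biUnion_le
    _ ≤ ∑ w, T * (8 * r / Δ * N + 1) * ((S w).card : ℝ)⁻¹ := by
        refine sum_le_sum fun w _ => ?_
        rw [card_product, Nat.cast_mul, hEc, mul_right_comm T (8 * r / Δ * N + 1)]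
        exact mul_le_mul_of_nonneg_left (hJc w) (by positivity)
    _ = T * (8 * r / Δ * N + 1) * ∑ w, ((S w).card : ℝ)⁻¹ := (mul_sum _ _ _).symm
    _ ≤ T * (8 * r / Δ * N + 1) * (1 + Real.log (Fintype.card V)) :=
        mul_le_mul_of_nonneg_left hsum (by positivity)
    _ = _ := by
        rw [Fintype.card_prod, Fintype.card_fin, Nat.cast_mul, ← hT]
        field_simp

end Vale.Agent.P249
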