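import Mathlib

namespace Vale.Agent.P249

open Finset MeasureTheory

lemma exp_mul_le {θ u : ℝ} (h0 : 0 ≤ u) (h1 : u ≤ 1) :
    Real.exp (θ * u) ≤ 1 + (Real.exp θ - 1) * u := by
  have h := convexOn_exp.2 (Set.mem_univ (0:ℝ)) (Set.mem_univ θ) (sub_nonneg.2 h1) h0
    (sub_add_cancel 1 u)
  simp only [smul_eq_mul, mul_zero, zero_add, Real.exp_zero, mul_one] at h
  rw [mul_comm θ u]
  linarith

/-- Derandomized multiplicative Chernoff sampling: if finitely many functions with values in
`[0,1]` all have weighted mean `m`, then `d` sample points approximate all the means as soon as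
`d m δ²` is at least the logarithm of twice their number. -/
theorem sample {α : Type*} [MeasurableSpace α] {μ : Measure α} {P : Type*} [Fintype P]
    (u : P → α → ℝ) (σ : α → ℝ) (h0 : ∀ e ω, 0 ≤ u e ω) (h1 : ∀ e ω, u e ω ≤ 1)
    (hu : ∀ e, AEStronglyMeasurable (u e) μ)
    (hσ0 : ∀ ω, 0 ≤ σ ω) (hσ : Integrable σ μ) {m : ℝ} (hm0 : 0 ≤ m) (hm1 : m < 1)
    (hS : 0 < ∫ ω, σ ω ∂μ)
    (hm : ∀ e, ∫ ω, σ ω * u e ω ∂μ = m * ∫ ω, σ ω ∂μ)
    {δ : ℝ} (hδ0 : 0 < δ) (hδ1 : δ ≤ 1) (d : ℕ)
    (hd : Real.log (2 * Fintype.card P) ≤ δ ^ 2 * (d * m)) :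
    ∃ ω : Fin d → α, (∀ l, 0 < σ (ω l)) ∧
      ∀ e, |∑ l, u e (ω l) - d * m| ≤ 2 * δ * (d * m) := by
  classical
  set S := ∫ ω, σ ω ∂μ with hSdef
  set a : ℝ := 1 + (Real.exp δ - 1) * m with hadef
  set b : ℝ := 1 + (Real.exp (-δ) - 1) * m with hbdef
  have ha : 0 < a := by
    have : 1 ≤ Real.exp δ := Real.one_le_exp hδ0.le
    rw [hadef]; nlinarith [mul_nonneg (sub_nonneg.2 this) hm0]
  have hb : 0 < b := by
    rw [hbdef]; nlinarith [mul_nonneg (Real.exp_pos (-δ)).le hm0]
  have key : ∀ l : ℕ, ∃ ω : Fin l → α, (∀ i, 0 < σ (ω i)) ∧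
      ∑ e, (Real.exp (δ * ∑ i, u e (ω i)) / a ^ l + Real.exp (-δ * ∑ i, u e (ω i)) / b ^ l)
        ≤ 2 * Fintype.card P := by
    intro l
    induction l with
    | zero =>
      refine ⟨Fin.elim0, fun i => i.elim0, le_of_eq ?_⟩
      simp; ring
    | succ l ih =>
      obtain ⟨ω, hω, hb2⟩ := ih
      let g : α → ℝ := fun x => ∑ e,
        (Real.exp (δ * ∑ i, u e (ω i)) / a ^ l * (Real.exp (δ * u e x) / a) +
         Real.exp (-δ * ∑ i, u e (ω i)) / b ^ l * (Real.exp (-δ * u e x) / b))
      have hint : ∀ (c : ℝ) e, Integrable (fun x => σ x * Real.exp (c * u e x)) μ := by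
        intro c e
        refine hσ.mul_bdd (c := Real.exp |c|)
          (Real.continuous_exp.comp_aestronglyMeasurable ((hu e).const_mul c))
          (Filter.Eventually.of_forall fun x => ?_)
        rw [Real.norm_eq_abs, Real.abs_exp]
        apply Real.exp_le_exp.2
        calc c * u e x ≤ |c| * u e x := mul_le_mul_of_nonneg_right (le_abs_self c) (h0 e x)
          _ ≤ |c| := mul_le_of_le_one_right (abs_nonneg c) (h1 e x)
      have hmean : ∀ c e, ∫ x, σ x * Real.exp (c * u e x) ∂μ ≤ (1 + (Real.exp c - 1) * m) * S := by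
        intro c e
        have hi : Integrable (fun x => σ x * u e x) μ :=
          hσ.mul_bdd (c := 1) (hu e) (Filter.Eventually.of_forall fun x => by
            rw [Real.norm_eq_abs, abs_of_nonneg (h0 e x)]; exact h1 e x)
        calc ∫ x, σ x * Real.exp (c * u e x) ∂μ
            ≤ ∫ x, (σ x + (Real.exp c - 1) * (σ x * u e x)) ∂μ := by
              refine integral_mono (hint c e) (hσ.add (hi.const_mul _)) fun x => ?_
              have := mul_le_mul_of_nonneg_left (exp_mul_le (θ := c) (h0 e x) (h1 e x)) (hσ0 x)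
              linarith
          _ = _ := by rw [integral_add hσ (hi.const_mul _), integral_const_mul, hm]; ring
      have hterm : ∀ e, Integrable (fun x =>
          Real.exp (δ * ∑ i, u e (ω i)) / a ^ l * (σ x * Real.exp (δ * u e x) / a) +
          Real.exp (-δ * ∑ i, u e (ω i)) / b ^ l * (σ x * Real.exp (-δ * u e x) / b)) μ :=
        fun e => (((hint δ e).div_const a).const_mul _).add
          (((hint (-δ) e).div_const b).const_mul _)
      have hg : ∫ x, σ x * g x ∂μ ≤ 2 * Fintype.card P * S := by
        have e1 : (fun x => σ x * g x) = fun x => ∑ e,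
            (Real.exp (δ * ∑ i, u e (ω i)) / a ^ l * (σ x * Real.exp (δ * u e x) / a) +
             Real.exp (-δ * ∑ i, u e (ω i)) / b ^ l * (σ x * Real.exp (-δ * u e x) / b)) := by
          funext x; simp only [g, mul_sum]; refine sum_congr rfl fun e _ => ?_; ring
        rw [e1, integral_finsetSum _ fun e _ => hterm e]
        calc _ ≤ ∑ e, (Real.exp (δ * ∑ i, u e (ω i)) / a ^ l +
              Real.exp (-δ * ∑ i, u e (ω i)) / b ^ l) * S := by
              refine sum_le_sum fun e _ => ?_
              rw [integral_add (((hint δ e).div_const a).const_mul _)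
                  (((hint (-δ) e).div_const b).const_mul _),
                integral_const_mul, integral_const_mul, integral_div, integral_div, add_mul]
              gcongr
              · rw [div_le_iff₀ ha, mul_comm S a]; exact hmean δ e
              · rw [div_le_iff₀ hb, mul_comm S b]; exact hmean (-δ) e
          _ = (∑ e, (Real.exp (δ * ∑ i, u e (ω i)) / a ^ l +
              Real.exp (-δ * ∑ i, u e (ω i)) / b ^ l)) * S := (sum_mul _ _ _).symm
          _ ≤ _ := mul_le_mul_of_nonneg_right hb2 hS.le
      have hex : ∃ x, 0 < σ x ∧ g x ≤ 2 * Fintype.card P := by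
        by_contra hcon
        push Not at hcon
        have hge : ∀ x, σ x * (2 * Fintype.card P) ≤ σ x * g x := fun x => by
          rcases (hσ0 x).eq_or_lt with h | h
          · simp [← h]
          · exact mul_le_mul_of_nonneg_left (hcon x h).le h.le
        have gi : Integrable (fun x => σ x * g x) μ := by
          have := integrable_finsetSum univ fun e _ => hterm e
          refine this.congr (Filter.Eventually.of_forall fun x => ?_)
          simp only [g, mul_sum]; refine sum_congr rfl fun e _ => ?_; ring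
        have h0' : ∫ x, (σ x * g x - σ x * (2 * Fintype.card P)) ∂μ = 0 := by
          refine le_antisymm ?_ (integral_nonneg fun x => sub_nonneg.2 (hge x))
          rw [integral_sub gi (hσ.mul_const _), integral_mul_const]
          linarith
        have hae := (integral_eq_zero_iff_of_nonneg (fun x => sub_nonneg.2 (hge x))
          (gi.sub (hσ.mul_const _))).1 h0'
        have hz : σ =ᵐ[μ] 0 := by
          filter_upwards [hae] with x hx
          by_contra hne
          have hp : 0 < σ x := lt_of_le_of_ne (hσ0 x) (Ne.symm hne)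
          have := mul_lt_mul_of_pos_left (hcon x hp) hp
          simp only [Pi.zero_apply] at hx
          linarith
        rw [hSdef, integral_eq_zero_of_ae hz] at hS
        exact lt_irrefl _ hS
      obtain ⟨x, hx, hxg⟩ := hex
      refine ⟨Fin.snoc ω x, fun i => ?_, le_trans (le_of_eq ?_) hxg⟩
      · refine Fin.lastCases ?_ (fun j => ?_) i
        · simpa using hx
        · simpa using hω j
      · simp only [g]
        refine sum_congr rfl fun e _ => ?_
        simp only [Fin.sum_univ_castSucc, Fin.snoc_castSucc, Fin.snoc_last, mul_add, Real.exp_add,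
          pow_succ]
        field_simp
  obtain ⟨ω, hω, hb2⟩ := key d
  refine ⟨ω, hω, fun e => ?_⟩
  set U := ∑ l, u e (ω l)
  have hP : (0:ℝ) < 2 * Fintype.card P := by
    have : (0:ℝ) < Fintype.card P := by exact_mod_cast Fintype.card_pos_iff.2 ⟨e⟩
    positivity
  have hone := le_trans (single_le_sum (f := fun e => Real.exp (δ * ∑ i, u e (ω i)) / a ^ d +
    Real.exp (-δ * ∑ i, u e (ω i)) / b ^ d) (fun e _ => by positivity) (mem_univ e)) hb2
  have p1 : 0 ≤ Real.exp (δ * U) / a ^ d := by positivity
  have p2 : 0 ≤ Real.exp (-δ * U) / b ^ d := by positivity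
  have u1 : δ * U - d * Real.log a ≤ Real.log (2 * Fintype.card P) := by
    rw [Real.le_log_iff_exp_le hP, Real.exp_sub, Real.exp_nat_mul, Real.exp_log ha]
    linarith
  have u2 : -δ * U - d * Real.log b ≤ Real.log (2 * Fintype.card P) := by
    rw [Real.le_log_iff_exp_le hP, Real.exp_sub, Real.exp_nat_mul, Real.exp_log hb]
    linarith
  have la : Real.log a ≤ (δ + δ ^ 2) * m := by
    refine (Real.log_le_sub_one_of_pos ha).trans ?_
    have := (abs_le.1 (Real.abs_exp_sub_one_sub_id_le (x := δ) (by rw [abs_of_pos hδ0]; exact hδ1))).2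
    rw [hadef, add_sub_cancel_left]
    exact mul_le_mul_of_nonneg_right (by linarith) hm0
  have lb : Real.log b ≤ (-δ + δ ^ 2) * m := by
    refine (Real.log_le_sub_one_of_pos hb).trans ?_
    have := (abs_le.1 (Real.abs_exp_sub_one_sub_id_le (x := -δ)
      (by rw [abs_neg, abs_of_pos hδ0]; exact hδ1))).2
    rw [hbdef, add_sub_cancel_left]
    exact mul_le_mul_of_nonneg_right (by linarith) hm0
  have la' := mul_le_mul_of_nonneg_left la (Nat.cast_nonneg (α := ℝ) d)
  have lb' := mul_le_mul_of_nonneg_left lb (Nat.cast_nonneg (α := ℝ) d)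
  rw [abs_le]
  constructor <;> nlinarith

end Vale.Agent.P249
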