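import Mathlib

/-!
Finitely many vectors of `L_p` are carried almost isometrically into a space `ℓ_p^N`, with `N`
bounded in terms of their number alone, by a linear contraction of the whole space (a weighted
conditional expectation onto finitely many cells).
-/

open MeasureTheory Finset
open scoped ENNReal

noncomputable section

namespace Vale.Agent.P249

variable {α : Type*} [MeasurableSpace α] {μ : Measure α}

lemma memLp_iff_integrable_abs_rpow {p : ℝ} (hp : 0 < p) {f : α → ℝ}
    (hf : AEStronglyMeasurable f μ) :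
    MemLp f (ENNReal.ofReal p) μ ↔ Integrable (fun x => |f x| ^ p) μ := by
  have h := integrable_norm_rpow_iff (p := ENNReal.ofReal p) hf (by simpa using hp)
    ENNReal.ofReal_ne_top
  rw [ENNReal.toReal_ofReal hp.le] at h
  simpa [Real.norm_eq_abs] using h.symm

/-- Hölder's inequality on one cell -/
lemma cell_holder {p : ℝ} (hp : 1 < p) {F f : α → ℝ} (hFm : Measurable F) (hF0 : ∀ x, 0 ≤ F x)
    (hF : Integrable (fun x => F x ^ p) μ) (hfm : Measurable f)
    (hf : Integrable (fun x => |f x| ^ p) μ) :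
    Integrable (fun x => f x * F x ^ (p - 1)) μ ∧
      |∫ x, f x * F x ^ (p - 1) ∂μ| ^ p
        ≤ (∫ x, |f x| ^ p ∂μ) * (∫ x, F x ^ p ∂μ) ^ (p - 1) := by
  have hpq : p.HolderConjugate (p / (p - 1)) := Real.HolderConjugate.conjExponent hp
  set q := p / (p - 1) with hq
  have hq0 : 0 < q := div_pos (by linarith) (by linarith)
  have hgq : ∀ x, |F x ^ (p - 1)| ^ q = F x ^ p := fun x => by
    rw [abs_of_nonneg (Real.rpow_nonneg (hF0 x) _), ← Real.rpow_mul (hF0 x), hq,
      mul_div_cancel₀ _ (by linarith : p - 1 ≠ 0)]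
  have hgm : Measurable (fun x => F x ^ (p - 1)) := hFm.pow_const _
  have hfL : MemLp f (ENNReal.ofReal p) μ :=
    (memLp_iff_integrable_abs_rpow (by linarith) hfm.aestronglyMeasurable).2 hf
  have hgL : MemLp (fun x => F x ^ (p - 1)) (ENNReal.ofReal q) μ :=
    (memLp_iff_integrable_abs_rpow hq0 hgm.aestronglyMeasurable).2 (by simpa only [hgq] using hF)
  have hint : Integrable (fun x => f x * F x ^ (p - 1)) μ := by
    have : ENNReal.HolderTriple (ENNReal.ofReal p) (ENNReal.ofReal q) 1 := hpq.ennrealOfReal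
    exact hfL.integrable_mul hgL
  refine ⟨hint, ?_⟩
  have h := integral_mul_norm_le_Lp_mul_Lq hpq hfL hgL
  simp only [Real.norm_eq_abs, hgq] at h
  have h1 : |∫ x, f x * F x ^ (p - 1) ∂μ| ≤ ∫ x, |f x| * |F x ^ (p - 1)| ∂μ := by
    refine abs_integral_le_integral_abs.trans (le_of_eq ?_)
    simp only [abs_mul]
  have hA : 0 ≤ ∫ x, |f x| ^ p ∂μ := integral_nonneg fun x => Real.rpow_nonneg (abs_nonneg _) _
  have hB : 0 ≤ ∫ x, F x ^ p ∂μ := integral_nonneg fun x => Real.rpow_nonneg (hF0 x) _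
  calc |∫ x, f x * F x ^ (p - 1) ∂μ| ^ p
      ≤ ((∫ x, |f x| ^ p ∂μ) ^ (1 / p) * (∫ x, F x ^ p ∂μ) ^ (1 / q)) ^ p :=
        Real.rpow_le_rpow (abs_nonneg _) (h1.trans h) (by linarith)
    _ = _ := by
        rw [Real.mul_rpow (Real.rpow_nonneg hA _) (Real.rpow_nonneg hB _),
          ← Real.rpow_mul hA, ← Real.rpow_mul hB, one_div_mul_cancel (by linarith : p ≠ 0),
          Real.rpow_one, hq, one_div_div, div_mul_cancel₀ _ (by linarith : p ≠ 0)]

/-- A linear contraction into `ℓ_p^N` that almost preserves finitely many given vectors. -/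
theorem skeleton_projection {p : ℝ} [Fact (1 ≤ ENNReal.ofReal p)] (hp : 1 < p) {ι : Type*}
    [Fintype ι] (v : ι → Lp ℝ (ENNReal.ofReal p) μ) {ε : ℝ} (hε : 0 < ε) :
    ∃ (N : ℕ) (T : Lp ℝ (ENNReal.ofReal p) μ →ₗ[ℝ] (Fin N → ℝ)),
      (N : ℝ) ≤ (4 * (Fintype.card ι : ℝ) ^ (1 / p) / ε + 3) ^ Fintype.card ι ∧
      (∀ f, ∑ c, |T f c| ^ p ≤ ‖f‖ ^ p) ∧
      ∀ e, (1 - ε) * ‖v e‖ ≤ (∑ c, |T (v e) c| ^ p) ^ (1 / p) := by
  classical
  have hp0 : 0 < p := by linarith
  have hne : ENNReal.ofReal p ≠ 0 := by simpa using hp0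
  have hnorm : ∀ g : Lp ℝ (ENNReal.ofReal p) μ,
      ‖g‖ ^ p = ∫ x, |g x| ^ p ∂μ ∧ Integrable (fun x => |g x| ^ p) μ := by
    intro g
    have hi := (memLp_iff_integrable_abs_rpow hp0 (Lp.memLp g).1).1 (Lp.memLp g)
    refine ⟨?_, hi⟩
    rw [Lp.norm_def, (Lp.memLp g).eLpNorm_eq_integral_rpow_norm hne ENNReal.ofReal_ne_top,
      ENNReal.toReal_ofReal hp0.le]
    simp only [Real.norm_eq_abs]
    have hnn : 0 ≤ ∫ x, |g x| ^ p ∂μ := integral_nonneg fun x => by positivity
    rw [ENNReal.toReal_ofReal (by positivity), ← Real.rpow_mul hnn,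
      inv_mul_cancel₀ hp0.ne', Real.rpow_one]
  have hmv : ∀ g : Lp ℝ (ENNReal.ofReal p) μ, Measurable (g : α → ℝ) := fun g =>
    (Lp.stronglyMeasurable g).measurable
  -- the normalized vectors and the dominating function
  set u : ι → α → ℝ := fun e x => v e x / ‖v e‖ with hu
  have hum : ∀ e, Measurable (u e) := fun e => (hmv _).div_const _
  have hup : ∀ e x, |u e x| ^ p = |v e x| ^ p / ‖v e‖ ^ p := fun e x => by
    simp only [hu, abs_div, abs_norm, Real.div_rpow (abs_nonneg _) (norm_nonneg _)]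
  have hui : ∀ e, Integrable (fun x => |u e x| ^ p) μ := fun e => by
    simp only [hup]; exact (hnorm _).2.div_const _
  have huint : ∀ e, ∫ x, |u e x| ^ p ∂μ = ‖v e‖ ^ p / ‖v e‖ ^ p := fun e => by
    simp only [hup, integral_div, ← (hnorm (v e)).1]
  set F : α → ℝ := fun x => (∑ e, |u e x| ^ p) ^ (1 / p) with hF
  have hs0 : ∀ x, 0 ≤ ∑ e, |u e x| ^ p := fun x =>
    Finset.sum_nonneg fun e _ => Real.rpow_nonneg (abs_nonneg _) _
  have hF0 : ∀ x, 0 ≤ F x := fun x => Real.rpow_nonneg (hs0 x) _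
  have hFm : Measurable F :=
    (Finset.measurable_fun_sum _ fun e _ => ((hum e).abs).pow_const p).pow_const _
  have hFp : ∀ x, F x ^ p = ∑ e, |u e x| ^ p := fun x => by
    simp only [hF]
    rw [← Real.rpow_mul (hs0 x), one_div_mul_cancel hp0.ne', Real.rpow_one]
  have hFi : Integrable (fun x => F x ^ p) μ := by
    simp only [hFp]; exact integrable_finsetSum _ fun e _ => hui e
  have hFtot : ∫ x, F x ^ p ∂μ ≤ Fintype.card ι := by
    simp only [hFp]
    rw [integral_finsetSum _ fun e _ => hui e]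
    calc ∑ e, ∫ x, |u e x| ^ p ∂μ ≤ ∑ _e : ι, (1 : ℝ) :=
          Finset.sum_le_sum fun e _ => (huint e).trans_le (div_self_le_one _)
      _ = _ := by simp
  have huF : ∀ e x, |u e x| ≤ F x := fun e x => by
    rw [← Real.rpow_le_rpow_iff (abs_nonneg _) (hF0 x) hp0, hFp]
    exact Finset.single_le_sum (f := fun e => |u e x| ^ p)
      (fun e _ => Real.rpow_nonneg (abs_nonneg _) _) (Finset.mem_univ e)
  set g : ι → α → ℝ := fun e x => u e x / F x with hg
  have hg1 : ∀ e x, |g e x| ≤ 1 := fun e x => by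
    simp only [hg, abs_div, abs_of_nonneg (hF0 x)]
    exact div_le_one_of_le₀ (huF e x) (hF0 x)
  have hgm : ∀ e, Measurable (g e) := fun e => (hum e).div hFm
  have hgu : ∀ e x, g e x * F x = u e x := fun e x => by
    by_cases h : F x = 0
    · have := huF e x
      rw [h] at this
      simp [abs_nonpos_iff.1 this, h]
    · simp only [hg]; field_simp
  have hFF : ∀ x, F x * F x ^ (p - 1) = F x ^ p := fun x => by
    rcases (hF0 x).eq_or_lt with h | h
    · rw [← h, zero_mul, Real.zero_rpow hp0.ne']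
    · rw [mul_comm, ← Real.rpow_add_one h.ne', sub_add_cancel]
  -- the cells
  set m : ℝ := (Fintype.card ι : ℝ) ^ (1 / p) with hm
  have hm0 : 0 ≤ m := Real.rpow_nonneg (Nat.cast_nonneg _) _
  set η : ℝ := ε / (2 * m + ε) with hη
  have hη0 : 0 < η := div_pos hε (by linarith)
  have hηm : η * m ≤ ε := by
    rw [hη, div_mul_eq_mul_div, div_le_iff₀ (by linarith)]; nlinarith
  set M : ℕ := ⌊2 / η⌋₊ + 1 with hM
  set cell : α → ι → Fin M := fun x e => ⟨min ⌊(g e x + 1) / η⌋₊ ⌊2 / η⌋₊,
    by omega⟩ with hcell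
  have hcellm : Measurable cell := by
    refine measurable_pi_lambda _ fun e => ?_
    refine measurable_to_countable' fun k => ?_
    have : (fun x => cell x e) ⁻¹' {k}
        = (fun x => min ⌊(g e x + 1) / η⌋₊ ⌊2 / η⌋₊) ⁻¹' {(k : ℕ)} := by
      ext x; simp [hcell, Fin.ext_iff]
    rw [this]
    exact ((Nat.measurable_floor.comp (((hgm e).add_const 1).div_const η)).min measurable_const)
      (measurableSet_singleton _)
  set A : (ι → Fin M) → Set α := fun c => cell ⁻¹' {c} with hA
  have hAm : ∀ c, MeasurableSet (A c) := fun c => hcellm (measurableSet_singleton c)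
  have hdec : ∀ H : α → ℝ, Integrable H μ → ∑ c, ∫ x in A c, H x ∂μ = ∫ x, H x ∂μ := by
    intro H hH
    rw [← integral_iUnion_fintype hAm (fun a b hab => Disjoint.preimage _ (by simpa using hab))
      (fun c => hH.integrableOn)]
    rw [show (⋃ c, A c) = Set.univ from Set.eq_univ_of_forall fun x =>
      Set.mem_iUnion.2 ⟨cell x, rfl⟩, setIntegral_univ]
  set W : (ι → Fin M) → ℝ := fun c => ∫ x in A c, F x ^ p ∂μ with hW
  have hW0 : ∀ c, 0 ≤ W c := fun c => integral_nonneg fun x => Real.rpow_nonneg (hF0 x) _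
  have hhol : ∀ (f : Lp ℝ (ENNReal.ofReal p) μ) c,
      Integrable (fun x => f x * F x ^ (p - 1)) (μ.restrict (A c)) ∧
      |∫ x in A c, f x * F x ^ (p - 1) ∂μ| ^ p
        ≤ (∫ x in A c, |f x| ^ p ∂μ) * W c ^ (p - 1) :=
    fun f c => cell_holder hp hFm hF0 hFi.restrict (hmv f) (hnorm f).2.restrict
  set eq := (Fintype.equivFin (ι → Fin M)).symm with heq
  let T0 : Lp ℝ (ENNReal.ofReal p) μ → (ι → Fin M) → ℝ := fun f c =>
    (∫ x in A c, f x * F x ^ (p - 1) ∂μ) / W c ^ ((p - 1) / p)
  have hadd : ∀ (f f' : Lp ℝ (ENNReal.ofReal p) μ) c, T0 (f + f') c = T0 f c + T0 f' c := by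
    intro f f' c
    simp only [T0, ← add_div]
    rw [← integral_add (hhol f c).1 (hhol f' c).1]
    congr 1
    refine integral_congr_ae ((ae_restrict_of_ae (Lp.coeFn_add f f')).mono fun x hx => ?_)
    simp only [hx, Pi.add_apply]; ring
  have hsmul : ∀ (r : ℝ) (f : Lp ℝ (ENNReal.ofReal p) μ) c, T0 (r • f) c = r * T0 f c := by
    intro r f c
    simp only [T0, ← mul_div_assoc, ← integral_const_mul]
    congr 1
    refine integral_congr_ae ((ae_restrict_of_ae (Lp.coeFn_smul r f)).mono fun x hx => ?_)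
    simp only [hx, Pi.smul_apply, smul_eq_mul]; ring
  have hden : ∀ c, (W c ^ ((p - 1) / p)) ^ p = W c ^ (p - 1) := fun c => by
    rw [← Real.rpow_mul (hW0 c), div_mul_cancel₀ _ hp0.ne']
  have hTp : ∀ (f : Lp ℝ (ENNReal.ofReal p) μ) c, |T0 f c| ^ p ≤ ∫ x in A c, |f x| ^ p ∂μ := by
    intro f c
    simp only [T0, abs_div, abs_of_nonneg (Real.rpow_nonneg (hW0 c) _)]
    rw [Real.div_rpow (abs_nonneg _) (Real.rpow_nonneg (hW0 c) _), hden]
    rcases (hW0 c).eq_or_lt with h | h
    · rw [← h, Real.zero_rpow (by linarith), div_zero]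
      exact integral_nonneg fun x => by positivity
    · rw [div_le_iff₀ (Real.rpow_pos_of_pos h _)]
      exact (hhol f c).2
  refine ⟨Fintype.card (ι → Fin M),
    { toFun := fun f i => T0 f (eq i)
      map_add' := fun f f' => funext fun i => hadd f f' _
      map_smul' := fun r f => funext fun i => hsmul r f _ }, ?_, ?_, ?_⟩
  · -- the number of cells
    rw [Fintype.card_fun, Fintype.card_fin, Nat.cast_pow]
    refine pow_le_pow_left₀ (Nat.cast_nonneg _) ?_ _
    rw [hM, Nat.cast_add, Nat.cast_one]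
    have h2 : 2 / η = 4 * m / ε + 2 := by rw [hη]; field_simp; ring
    have := Nat.floor_le (show 0 ≤ 2 / η by positivity)
    linarith
  · intro f
    show ∑ i, |T0 f (eq i)| ^ p ≤ _
    rw [eq.sum_comp (fun c => |T0 f c| ^ p), (hnorm f).1, ← hdec _ (hnorm f).2]
    exact Finset.sum_le_sum fun c _ => hTp f c
  · intro e
    show _ ≤ (∑ i, |T0 (v e) (eq i)| ^ p) ^ (1 / p)
    rw [eq.sum_comp (fun c => |T0 (v e) c| ^ p)]
    rcases (norm_nonneg (v e)).eq_or_lt with h | h
    · rw [← h, mul_zero]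
      exact Real.rpow_nonneg (Finset.sum_nonneg fun c _ => by positivity) _
    set t : (ι → Fin M) → ℝ := fun c => |T0 (v e) c| / ‖v e‖ with ht
    have ht0 : ∀ c, 0 ≤ t c := fun c => div_nonneg (abs_nonneg _) h.le
    have hcellbd : ∀ c, ∫ x in A c, |u e x| ^ p ∂μ ≤ (t c + η * W c ^ (1 / p)) ^ p := by
      intro c
      rcases (hW0 c).eq_or_lt with hw | hw
      · have h0 : ∫ x in A c, |u e x| ^ p ∂μ ≤ W c := setIntegral_mono (hui e).integrableOn
          hFi.integrableOn fun x => Real.rpow_le_rpow (abs_nonneg _) (huF e x) hp0.le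
        rw [← hw] at h0
        exact h0.trans (Real.rpow_nonneg (add_nonneg (ht0 c)
          (mul_nonneg hη0.le (Real.rpow_nonneg (hW0 c) _))) _)
      set a : ℝ := ((c e : ℕ) : ℝ) * η - 1 with ha
      have hin : ∀ x ∈ A c, a ≤ g e x ∧ g e x ≤ a + η := by
        intro x hx
        have hxe : min ⌊(g e x + 1) / η⌋₊ ⌊2 / η⌋₊ = (c e : ℕ) := by
          rw [← show cell x = c from hx]
        have hle : ⌊(g e x + 1) / η⌋₊ ≤ ⌊2 / η⌋₊ :=
          Nat.floor_mono (by gcongr; linarith [(abs_le.1 (hg1 e x)).2])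
        rw [min_eq_left hle] at hxe
        have h1 := Nat.floor_le (show 0 ≤ (g e x + 1) / η from
          div_nonneg (by linarith [(abs_le.1 (hg1 e x)).1]) hη0.le)
        have h2 := Nat.lt_floor_add_one ((g e x + 1) / η)
        rw [hxe, le_div_iff₀ hη0] at h1
        rw [hxe, div_lt_iff₀ hη0] at h2
        constructor <;> rw [ha] <;> nlinarith
      set J := ∫ x in A c, u e x * F x ^ (p - 1) ∂μ with hJ
      have hJi : IntegrableOn (fun x => u e x * F x ^ (p - 1)) (A c) μ :=
        (cell_holder hp hFm hF0 hFi.restrict (hum e) (hui e).restrict).1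
      have hJ1 : a * W c ≤ J := by
        simp only [hW, ← integral_const_mul]
        refine setIntegral_mono_on (hFi.const_mul _).integrableOn hJi (hAm c) fun x hx => ?_
        rw [← hgu, mul_assoc, hFF]
        exact mul_le_mul_of_nonneg_right (hin x hx).1 (Real.rpow_nonneg (hF0 x) _)
      have hJ2 : J ≤ (a + η) * W c := by
        simp only [hW, ← integral_const_mul]
        refine setIntegral_mono_on hJi (hFi.const_mul _).integrableOn (hAm c) fun x hx => ?_
        rw [← hgu, mul_assoc, hFF]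
        exact mul_le_mul_of_nonneg_right (hin x hx).2 (Real.rpow_nonneg (hF0 x) _)
      have htJ : t c = |J| / W c ^ ((p - 1) / p) := by
        simp only [ht, T0, hJ, hu, abs_div, abs_of_pos (Real.rpow_pos_of_pos hw _)]
        rw [div_right_comm]
        congr 1
        simp only [div_mul_eq_mul_div, integral_div, abs_div, abs_norm]
      have hmean : ∀ x ∈ A c, |g e x| ≤ |J| / W c + η := by
        intro x hx
        obtain ⟨h1, h2⟩ := hin x hx
        have e1 : a ≤ J / W c := (le_div_iff₀ hw).2 hJ1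
        have e2 : J / W c ≤ a + η := (div_le_iff₀ hw).2 hJ2
        rw [← abs_of_pos hw, ← abs_div, abs_le]
        constructor <;> linarith [le_abs_self (J / W c), neg_abs_le (J / W c)]
      calc ∫ x in A c, |u e x| ^ p ∂μ ≤ ∫ x in A c, (|J| / W c + η) ^ p * F x ^ p ∂μ := by
            refine setIntegral_mono_on (hui e).integrableOn (hFi.const_mul _).integrableOn (hAm c)
              fun x hx => ?_
            rw [← hgu, abs_mul, abs_of_nonneg (hF0 x), Real.mul_rpow (abs_nonneg _) (hF0 x)]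
            exact mul_le_mul_of_nonneg_right (Real.rpow_le_rpow (abs_nonneg _) (hmean x hx) hp0.le)
              (Real.rpow_nonneg (hF0 x) _)
        _ = ((|J| / W c + η) * W c ^ (1 / p)) ^ p := by
            rw [integral_const_mul, Real.mul_rpow (by positivity) (Real.rpow_nonneg hw.le _),
              ← Real.rpow_mul hw.le, one_div_mul_cancel hp0.ne', Real.rpow_one]
        _ = _ := by
            rw [htJ, add_mul, sub_div, div_self hp0.ne', Real.rpow_sub hw, Real.rpow_one]
            congr 2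
            field_simp
    have key : (1 : ℝ) ≤ (∑ c, t c ^ p) ^ (1 / p) + η * m := by
      have hn : ∀ c, 0 ≤ η * W c ^ (1 / p) := fun c =>
        mul_nonneg hη0.le (Real.rpow_nonneg (hW0 c) _)
      have h1 : (1 : ℝ) ≤ (∑ c, (t c + η * W c ^ (1 / p)) ^ p) ^ (1 / p) := by
        refine Real.one_le_rpow ?_ (by positivity)
        calc (1 : ℝ) = ∫ x, |u e x| ^ p ∂μ := by
              rw [huint, div_self (Real.rpow_pos_of_pos h _).ne']
          _ = _ := (hdec _ (hui e)).symm
          _ ≤ _ := Finset.sum_le_sum fun c _ => hcellbd c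
      refine h1.trans ((Real.Lp_add_le_of_nonneg _ hp.le (fun c _ => ht0 c) fun c _ => hn c).trans
        (add_le_add le_rfl ?_))
      have : ∀ c, (η * W c ^ (1 / p)) ^ p = η ^ p * W c := fun c => by
        rw [Real.mul_rpow hη0.le (Real.rpow_nonneg (hW0 c) _), ← Real.rpow_mul (hW0 c),
          one_div_mul_cancel hp0.ne', Real.rpow_one]
      simp only [this, ← Finset.mul_sum]
      rw [Real.mul_rpow (by positivity) (Finset.sum_nonneg fun c _ => hW0 c),
        ← Real.rpow_mul hη0.le, mul_one_div_cancel hp0.ne', Real.rpow_one]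
      refine mul_le_mul_of_nonneg_left (Real.rpow_le_rpow (Finset.sum_nonneg fun c _ => hW0 c)
        ((hdec _ hFi).trans_le hFtot) (by positivity)) hη0.le
    have hsc : (∑ c, t c ^ p) ^ (1 / p) = (∑ c, |T0 (v e) c| ^ p) ^ (1 / p) / ‖v e‖ := by
      simp only [ht, Real.div_rpow (abs_nonneg _) h.le, ← Finset.sum_div]
      rw [Real.div_rpow (Finset.sum_nonneg fun c _ => by positivity) (by positivity),
        ← Real.rpow_mul h.le, mul_one_div_cancel hp0.ne', Real.rpow_one]
    rw [hsc] at key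
    have key' : 1 - ε ≤ (∑ c, |T0 (v e) c| ^ p) ^ (1 / p) / ‖v e‖ := by linarith
    rwa [le_div_iff₀ h] at key'

end Vale.Agent.P249
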