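import Mathlib

namespace Vale.Agent.P249

open Finset

variable {V : Type*} [Fintype V] [DecidableEq V]

omit [Fintype V] in
lemma nearest (r : V → ℝ) (A : Finset V) {M : ℕ} (h : M ≤ A.card) :
    ∃ B ⊆ A, B.card = M ∧ ∀ b ∈ B, ∀ c ∈ A, c ∉ B → r b ≤ r c := by
  obtain ⟨B, hB, hmin⟩ := exists_min_image (A.powersetCard M) (fun B => ∑ b ∈ B, r b)
    (powersetCard_nonempty.2 h)
  rw [mem_powersetCard] at hB
  refine ⟨B, hB.1, hB.2, fun b hb c hc hcB => ?_⟩
  have hb' : c ∉ B.erase b := fun hh => hcB (mem_of_mem_erase hh)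
  have hmem : insert c (B.erase b) ∈ A.powersetCard M := by
    rw [mem_powersetCard]
    refine ⟨insert_subset hc ((erase_subset _ _).trans hB.1), ?_⟩
    rw [card_insert_of_notMem hb', card_erase_of_mem hb, ← hB.2]
    have : 0 < B.card := card_pos.2 ⟨b, hb⟩
    omega
  have := hmin _ hmem
  rw [sum_insert hb', ← add_sum_erase B r hb] at this
  linarith

lemma hitting (A : Finset V) (hA : A.Nonempty) (S : V → Finset V) (hS : ∀ v, S v ⊆ A) {M : ℕ}
    (hM : ∀ v, M ≤ (S v).card) (j : ℕ) :
    ∃ H ⊆ A, H.card ≤ j ∧ ((univ.filter fun v => Disjoint (S v) H).card : ℝ) ≤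
      Fintype.card V * Real.exp (-((M:ℝ) / A.card) * j) := by
  induction j with
  | zero => exact ⟨∅, by simp, by simp, by simp⟩
  | succ j ih =>
    obtain ⟨H, hH, hc, hU⟩ := ih
    set U := univ.filter fun v => Disjoint (S v) H with hUdef
    have hswap : ∑ c ∈ A, (U.filter fun v => c ∈ S v).card = ∑ v ∈ U, (S v).card := by
      simp only [card_eq_sum_ones (s := U.filter _), sum_filter]
      rw [sum_comm]
      refine sum_congr rfl fun v _ => ?_
      rw [← sum_filter, card_eq_sum_ones]
      congr 1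
      exact filter_mem_eq_inter.trans (inter_eq_right.2 (hS v))
    have hsum : ∑ _c ∈ A, (U.card : ℝ) * M / A.card ≤
        ∑ c ∈ A, ((U.filter fun v => c ∈ S v).card : ℝ) := by
      rw [sum_const, nsmul_eq_mul, mul_div_cancel₀ _ (by exact_mod_cast hA.card_pos.ne')]
      have : U.card * M ≤ ∑ v ∈ U, (S v).card := by
        simpa using card_nsmul_le_sum U (fun v => (S v).card) M (fun v _ => hM v)
      exact_mod_cast hswap ▸ this
    obtain ⟨c, hcA, hcge⟩ := exists_le_of_sum_le hA hsum
    refine ⟨insert c H, insert_subset hcA hH, (card_insert_le _ _).trans (by omega), ?_⟩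
    have e : (univ.filter fun v => Disjoint (S v) (insert c H)) =
        U.filter fun v => c ∉ S v := by
      ext v; simp [hUdef, disjoint_insert_right, and_comm]
    rw [e]
    have h2 : ((U.filter fun v => c ∈ S v).card : ℝ) +
        ((U.filter fun v => c ∉ S v).card : ℝ) = U.card := by
      exact_mod_cast card_filter_add_card_filter_not (s := U) (fun v => c ∈ S v)
    have h3 : 1 - (M:ℝ) / A.card ≤ Real.exp (-((M:ℝ) / A.card)) := by
      have := Real.add_one_le_exp (-((M:ℝ) / A.card)); linarith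
    calc ((U.filter fun v => c ∉ S v).card : ℝ) ≤ U.card * (1 - (M:ℝ) / A.card) := by
          rw [mul_sub, mul_one, ← mul_div_assoc]; linarith
      _ ≤ U.card * Real.exp (-((M:ℝ) / A.card)) :=
          mul_le_mul_of_nonneg_left h3 (Nat.cast_nonneg _)
      _ ≤ (Fintype.card V * Real.exp (-((M:ℝ) / A.card) * j)) *
            Real.exp (-((M:ℝ) / A.card)) :=
          mul_le_mul_of_nonneg_right hU (Real.exp_pos _).le
      _ = _ := by rw [mul_assoc, ← Real.exp_add]; push_cast; ring_nf

/-- Deterministic Thorup–Zwick style two-hop spanner. -/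
lemma two_hop_aux (D : V → V → ℝ) (D0 : ∀ x y, 0 ≤ D x y) (Dsymm : ∀ x y, D x y = D y x)
    (Dtri : ∀ x y z, D x z ≤ D x y + D y z) {M : ℕ} (hM3 : 3 ≤ M)
    (hM : 3 * (Real.log (Fintype.card V) + 1) ≤ M) (L : ℕ) :
    ∀ A : Finset V, A.card ≤ 2 ^ L → ∃ E : Finset (V × V),
      E.card ≤ (L + 1) * (Fintype.card V * M) ∧
      ∀ (i : ℕ) (x y w : V), w ∈ A → D x w ≤ i * D x y →
        ∃ w', (w' = w ∨ (x, w') ∈ E) ∧ (y, w') ∈ E ∧
          D x w' + D y w' ≤ (2 * ((i:ℝ) + L) + 1) * D x y := by
  have base : ∀ (L : ℕ) (A : Finset V), A.card ≤ M → ∃ E : Finset (V × V),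
      E.card ≤ (L + 1) * (Fintype.card V * M) ∧
      ∀ (i : ℕ) (x y w : V), w ∈ A → D x w ≤ i * D x y →
        ∃ w', (w' = w ∨ (x, w') ∈ E) ∧ (y, w') ∈ E ∧
          D x w' + D y w' ≤ (2 * ((i:ℝ) + L) + 1) * D x y := by
    intro L A hA
    refine ⟨univ ×ˢ A, ?_, fun i x y w hw hd => ⟨w, Or.inl rfl, by simp [hw], ?_⟩⟩
    · rw [card_product, card_univ]
      exact le_trans (Nat.mul_le_mul_left _ hA) (Nat.le_mul_of_pos_left _ (by omega))
    · have h1 := Dtri y x w
      rw [Dsymm y x] at h1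
      have := mul_nonneg (Nat.cast_nonneg (α := ℝ) L) (D0 x y)
      nlinarith
  induction L with
  | zero => exact fun A hA => base 0 A (by simp at hA; omega)
  | succ L ih =>
    intro A hA
    rcases le_or_gt A.card M with h | h
    · exact base _ A h
    have hne : A.Nonempty := card_pos.1 (by omega)
    choose B hBA hBc hBn using fun v : V => nearest (D v) A h.le
    obtain ⟨H, hHA, hHc, hHU⟩ := hitting A hne B hBA (fun v => (hBc v).ge) (A.card / 2)
    have hhit : ∀ v, ¬ Disjoint (B v) H := by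
      intro v hv
      have h1 : (1:ℝ) ≤ ((univ.filter fun v => Disjoint (B v) H).card : ℝ) := by
        exact_mod_cast card_pos.2 ⟨v, by simpa using hv⟩
      have hV : (0:ℝ) < Fintype.card V := by exact_mod_cast Fintype.card_pos_iff.2 ⟨v⟩
      have hdiv : (A.card:ℝ) ≤ 3 * ((A.card / 2 : ℕ) : ℝ) := by
        have : A.card ≤ 3 * (A.card / 2) := by omega
        exact_mod_cast this
      have ha : (0:ℝ) < A.card := by exact_mod_cast hne.card_pos
      have h2 : Real.log (Fintype.card V) + 1 ≤ (M:ℝ) / A.card * ((A.card / 2 : ℕ) : ℝ) := by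
        rw [div_mul_eq_mul_div, le_div_iff₀ ha]
        have : 0 ≤ Real.log (Fintype.card V) + 1 := by
          have := Real.log_nonneg (x := (Fintype.card V : ℝ))
            (by exact_mod_cast Fintype.card_pos_iff.2 ⟨v⟩)
          linarith
        calc (Real.log (Fintype.card V) + 1) * A.card
            ≤ (Real.log (Fintype.card V) + 1) * (3 * ((A.card / 2 : ℕ) : ℝ)) :=
              mul_le_mul_of_nonneg_left hdiv this
          _ ≤ _ := by
              rw [← mul_assoc, mul_comm _ (3:ℝ)]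
              exact mul_le_mul_of_nonneg_right hM (Nat.cast_nonneg _)
      have h3 : (Fintype.card V : ℝ) * Real.exp (-((M:ℝ) / A.card) * ((A.card / 2 : ℕ) : ℝ))
          < 1 := by
        rw [← Real.exp_log hV, ← Real.exp_add, Real.exp_lt_one_iff]
        linarith
      linarith
    obtain ⟨E', hE', hprop⟩ := ih H (by
      have : A.card ≤ 2 * 2 ^ L := by rw [← pow_succ']; exact hA
      omega)
    refine ⟨(univ.biUnion fun v => (B v).image fun b => (v, b)) ∪ E', ?_, ?_⟩
    · refine (card_union_le _ _).trans ?_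
      have : (univ.biUnion fun v => (B v).image fun b => (v, b)).card ≤ Fintype.card V * M := by
        refine card_biUnion_le.trans ?_
        refine (sum_le_card_nsmul univ _ M fun v _ => card_image_le.trans (hBc v).le).trans ?_
        simp
      calc _ ≤ Fintype.card V * M + (L + 1) * (Fintype.card V * M) := add_le_add this hE'
        _ = _ := by ring
    intro i x y w hw hd
    have memB : ∀ v b, b ∈ B v →
        (v, b) ∈ (univ.biUnion fun v => (B v).image fun b => (v, b)) ∪ E' := by
      intro v b hb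
      exact mem_union_left _ (mem_biUnion.2 ⟨v, mem_univ _, mem_image.2 ⟨b, hb, rfl⟩⟩)
    by_cases hwy : w ∈ B y
    · refine ⟨w, Or.inl rfl, memB y w hwy, ?_⟩
      have h1 := Dtri y x w
      rw [Dsymm y x] at h1
      have := mul_nonneg (Nat.cast_nonneg (α := ℝ) L) (D0 x y)
      have := D0 x y
      push_cast
      nlinarith
    · obtain ⟨q, hqB, hqH⟩ := not_disjoint_iff.1 (hhit y)
      have h1 : D y q ≤ ((i + 1 : ℕ) : ℝ) * D y x := by
        have h1 := hBn y q hqB w hw hwy
        have h2 := Dtri y x w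
        push_cast
        rw [Dsymm y x] at h2 ⊢
        linarith
      obtain ⟨w', hw1, hw2, hw3⟩ := hprop (i + 1) y x q hqH h1
      refine ⟨w', Or.inr (mem_union_right _ hw2), ?_, ?_⟩
      · rcases hw1 with rfl | hh
        · exact memB y _ hqB
        · exact mem_union_right _ hh
      · push_cast at hw3 ⊢
        rw [Dsymm x y]
        linarith

/-- Every finite pseudometric has a two-hop spanner with `O(n log² n)` edges and stretch
`O(log n)`. -/
theorem two_hop (D : V → V → ℝ) (D0 : ∀ x y, 0 ≤ D x y) (Dself : ∀ x, D x x = 0)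
    (Dsymm : ∀ x y, D x y = D y x) (Dtri : ∀ x y z, D x z ≤ D x y + D y z) {M : ℕ} (hM3 : 3 ≤ M)
    (hM : 3 * (Real.log (Fintype.card V) + 1) ≤ M) {L : ℕ} (hL : Fintype.card V ≤ 2 ^ L) :
    ∃ E : Finset (V × V), E.card ≤ (L + 1) * (Fintype.card V * M) ∧
      ∀ x y, ∃ w, (w = x ∨ (x, w) ∈ E) ∧ (y, w) ∈ E ∧
        D x w + D y w ≤ (2 * (L:ℝ) + 1) * D x y := by
  obtain ⟨E, hE, h⟩ := two_hop_aux D D0 Dsymm Dtri hM3 hM L univ (by simpa using hL)
  refine ⟨E, hE, fun x y => ?_⟩
  obtain ⟨w, h1, h2, h3⟩ := h 0 x y x (mem_univ _) (by simp [Dself])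
  exact ⟨w, h1, h2, by simpa using h3⟩

end Vale.Agent.P249
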