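import Vale.Agent.P249.Spanner
import Vale.Agent.P249.Sampling

namespace Vale.Agent.P249

open Finset MeasureTheory
open scoped ENNReal

lemma clog_bound {n : ℕ} (hn : 2 ≤ n) :
    n ≤ 2 ^ Nat.clog 2 n ∧ (Nat.clog 2 n : ℝ) ≤ Real.log n / Real.log 2 + 1 := by
  refine ⟨Nat.le_pow_clog one_lt_two n, ?_⟩
  have h := Nat.pow_pred_clog_lt_self one_lt_two (x := n) (by omega)
  have h2 : Real.log ((2:ℝ) ^ (Nat.clog 2 n).pred) ≤ Real.log n := by
    apply Real.log_le_log (by positivity)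
    exact_mod_cast h.le
  rw [Real.log_pow] at h2
  have l2 : 0 < Real.log 2 := Real.log_pos (by norm_num)
  have hpos : 1 ≤ Nat.clog 2 n := Nat.clog_pos one_lt_two hn
  have e : ((Nat.clog 2 n).pred : ℝ) = (Nat.clog 2 n : ℝ) - 1 := by
    rw [Nat.pred_eq_sub_one, Nat.cast_sub hpos]; norm_num
  rw [e] at h2
  rw [← sub_le_iff_le_add, le_div_iff₀ l2]
  exact h2

variable {α : Type*} [MeasurableSpace α] {μ : Measure α}

lemma norm_rpow_eq {p : ℝ} [Fact (1 ≤ ENNReal.ofReal p)] (hp : 1 ≤ p)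
    (g : Lp ℝ (ENNReal.ofReal p) μ) :
    ‖g‖ ^ p = ∫ ω, |g ω| ^ p ∂μ ∧ Integrable (fun ω => |g ω| ^ p) μ := by
  have h0 : ENNReal.ofReal p ≠ 0 := by simp; linarith
  have htop : ENNReal.ofReal p ≠ ∞ := ENNReal.ofReal_ne_top
  have hr : (ENNReal.ofReal p).toReal = p := ENNReal.toReal_ofReal (by linarith)
  have hi := (Lp.memLp g).integrable_norm_rpow h0 htop
  rw [hr] at hi
  simp only [Real.norm_eq_abs] at hi
  refine ⟨?_, hi⟩
  rw [Lp.norm_def, (Lp.memLp g).eLpNorm_eq_integral_rpow_norm h0 htop, hr]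
  simp only [Real.norm_eq_abs]
  have hnn : 0 ≤ ∫ ω, |g ω| ^ p ∂μ := integral_nonneg fun ω => by positivity
  rw [ENNReal.toReal_ofReal (by positivity), ← Real.rpow_mul hnn,
    inv_mul_cancel₀ (by linarith), Real.rpow_one]

lemma dim_bound {p δ l n L M S T c l2 : ℝ} (hp : 0 < p) (hδ : 0 < δ) (hl2 : (0.693:ℝ) < l2)
    (hl : l2 ≤ l) (hL : L ≤ l / l2 + 1) (hL0 : 0 ≤ L) (hM0 : 0 ≤ M) (hM : M ≤ 3 * (l + 1) + 1)
    (hn : 0 ≤ n) (hS0 : 0 ≤ S) (hS : S ≤ (L + 1) * (n * M))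
    (hT : T = (2 * L + 1) ^ p) (hc : c ≤ 3 * l * (T * S) / δ ^ 2 + 2) :
    c ≤ 3 * 99 * 8 ^ p / δ ^ 2 * (n * l ^ (p + 3)) + 2 := by
  have il : l / l2 ≤ 1.5 * l := by
    rw [div_le_iff₀ (by linarith)]; nlinarith
  have hT7 : T ≤ 8 ^ p * l ^ p := by
    rw [hT, ← Real.mul_rpow (by norm_num) (by linarith)]
    exact Real.rpow_le_rpow (by linarith) (by linarith) hp.le
  have hS99 : S ≤ 99 * (n * (l * l)) := by
    refine hS.trans ?_
    calc (L + 1) * (n * M) ≤ (5 * l) * (n * (10 * l)) :=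
          mul_le_mul (by linarith) (mul_le_mul_of_nonneg_left (by linarith) hn)
            (mul_nonneg hn hM0) (by linarith)
      _ = 50 * (n * (l * l)) := by ring
      _ ≤ _ := mul_le_mul_of_nonneg_right (by norm_num) (mul_nonneg hn (mul_self_nonneg l))
  have hpow : l ^ (p + 3) = l ^ p * (l * l * l) := by
    rw [Real.rpow_add (by linarith), show (3:ℝ) = ((3:ℕ):ℝ) by norm_num, Real.rpow_natCast]
    ring
  have h1 : T * S ≤ (8 ^ p * l ^ p) * (99 * (n * (l * l))) :=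
    mul_le_mul hT7 hS99 hS0 (mul_nonneg (Real.rpow_nonneg (by norm_num) _)
      (Real.rpow_nonneg (by linarith) _))
  refine hc.trans (add_le_add ?_ le_rfl)
  rw [hpow, div_mul_eq_mul_div]
  apply div_le_div_of_nonneg_right _ (by positivity)
  exact (mul_le_mul_of_nonneg_left h1 (by linarith)).trans (le_of_eq (by ring))

lemma ratio_bound {p δ N T S U : ℝ} (hp : 0 < p) (hδ0 : 0 ≤ δ) (hδ : δ ≤ 1/4) (hN0 : 0 ≤ N)
    (hT : 1 ≤ T) (hS : 0 < S) {d : ℕ} {a b w : Fin d → ℝ} (hw : ∀ l, 0 < w l) (v : Fin d → ℝ)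
    (hU : U = ∑ l, v l) (hv : ∀ l, v l = |a l - b l| ^ p / (w l * (T * N ^ p))) (hN : 0 < N)
    (h : |U - d * (1 / (T * S))| ≤ 2 * δ * (d * (1 / (T * S)))) :
    ((1 - 2*δ) * (d / S)) ^ (1/p) * N ≤
        (∑ l, |a l * w l ^ (-(1/p)) - b l * w l ^ (-(1/p))| ^ p) ^ (1/p) ∧
      (∑ l, |a l * w l ^ (-(1/p)) - b l * w l ^ (-(1/p))| ^ p) ^ (1/p) ≤
        (1 + 8 * δ) ^ (1/p) * (((1 - 2*δ) * (d / S)) ^ (1/p) * N) := by
  rw [abs_le] at h
  have T0 : T ≠ 0 := by linarith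
  have hND : 0 < N ^ p := Real.rpow_pos_of_pos hN p
  have hsum : ∑ l, |a l * w l ^ (-(1/p)) - b l * w l ^ (-(1/p))| ^ p = N ^ p * T * U := by
    rw [hU, mul_sum]
    refine sum_congr rfl fun l _ => ?_
    have hσl := hw l
    rw [← sub_mul, abs_mul, abs_of_pos (Real.rpow_pos_of_pos hσl _),
      Real.mul_rpow (abs_nonneg _) (Real.rpow_nonneg hσl.le _), ← Real.rpow_mul hσl.le,
      neg_mul, one_div_mul_cancel hp.ne', Real.rpow_neg_one, hv]
    field_simp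
  have hdS : 0 ≤ (d:ℝ) / S := by positivity
  have hc0 : 0 ≤ (1 - 2*δ) * ((d:ℝ) / S) := mul_nonneg (by linarith) hdS
  have es : ((1 - 2*δ) * ((d:ℝ) / S)) ^ (1/p) * N = (N ^ p * ((1 - 2*δ) * (d / S))) ^ (1/p) := by
    rw [Real.mul_rpow hND.le hc0, ← Real.rpow_mul hN0, mul_one_div_cancel hp.ne',
      Real.rpow_one, mul_comm]
  have e : ∀ c : ℝ, N ^ p * T * (c * ((d:ℝ) * (1 / (T * S)))) = c * (N ^ p * (d / S)) := by
    intro c; field_simp
  have hNT : 0 ≤ N ^ p * T := mul_nonneg hND.le (by linarith)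
  rw [es, hsum]
  constructor
  · apply Real.rpow_le_rpow (mul_nonneg hND.le hc0) _ (by positivity)
    have := mul_le_mul_of_nonneg_left
      (show (1 - 2*δ) * ((d:ℝ) * (1 / (T * S))) ≤ U by linarith) hNT
    rw [e] at this
    linarith
  · rw [← Real.mul_rpow (by linarith) (mul_nonneg hND.le hc0)]
    have h1 := mul_le_mul_of_nonneg_left
      (show U ≤ (1 + 2*δ) * ((d:ℝ) * (1 / (T * S))) by linarith) hNT
    rw [e] at h1
    have hU0 : 0 ≤ U := hU ▸ sum_nonneg fun l _ => by rw [hv]; have := hw l; positivity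
    apply Real.rpow_le_rpow (mul_nonneg hNT hU0) _ (by positivity)
    have h2 : 1 + 2*δ ≤ (1 + 8*δ) * (1 - 2*δ) := by nlinarith
    have := mul_le_mul_of_nonneg_right h2 (mul_nonneg hND.le hdS)
    linarith

/-- The sampling weight obtained from a spanner. -/
lemma exists_weight {p : ℝ} [Fact (1 ≤ ENNReal.ofReal p)] (hp : 1 ≤ p) {n : ℕ} (hn : 2 ≤ n)
    (x : Fin n → Lp ℝ (ENNReal.ofReal p) μ) (hne : ∃ i j, x i ≠ x j) :
    ∃ (M L S : ℕ) (σ : α → ℝ), (M:ℝ) ≤ 3 * (Real.log n + 1) + 1 ∧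
      (L:ℝ) ≤ Real.log n / Real.log 2 + 1 ∧ 1 ≤ L ∧ 1 ≤ S ∧ S ≤ (L + 1) * (n * M) ∧
      (∀ ω, 0 ≤ σ ω) ∧ Integrable σ μ ∧ ∫ ω, σ ω ∂μ = S ∧
      (∀ i j, Integrable (fun ω => |x i ω - x j ω| ^ p) μ ∧
        ∫ ω, |x i ω - x j ω| ^ p ∂μ = ‖x i - x j‖ ^ p) ∧
      ∀ i j ω, |x i ω - x j ω| ^ p ≤ σ ω * ((2 * (L:ℝ) + 1) ^ p * ‖x i - x j‖ ^ p) := by
  classical
  have hp0 : 0 < p := by linarith
  set l := Real.log n with hl
  have l2 : (0.693:ℝ) < Real.log 2 := by have := Real.log_two_gt_d9; linarith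
  have hln : Real.log 2 ≤ l := Real.log_le_log (by norm_num) (by exact_mod_cast hn)
  let M : ℕ := ⌈3 * (l + 1)⌉₊
  have hM : 3 * (l + 1) ≤ M := Nat.le_ceil _
  have hMu : (M:ℝ) ≤ 3 * (l + 1) + 1 := (Nat.ceil_lt_add_one (by linarith)).le
  have hM3 : 3 ≤ M := by
    have : (3:ℝ) ≤ M := by linarith
    exact_mod_cast this
  let D : Fin n → Fin n → ℝ := fun i j => ‖x i - x j‖
  obtain ⟨hL, hLu⟩ := clog_bound hn
  set L := Nat.clog 2 n
  obtain ⟨E, hE, hspan⟩ := two_hop (V := Fin n) D (fun i j => norm_nonneg _) (fun i => by simp [D])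
    (fun i j => norm_sub_rev _ _) (fun i j k => norm_sub_le_norm_sub_add_norm_sub _ _ _) hM3
    (by simpa using hM) (L := L) (by simpa using hL)
  set t : ℝ := 2 * (L:ℝ) + 1 with ht
  have ht1 : 1 ≤ t := by rw [ht]; linarith [Nat.cast_nonneg (α := ℝ) L]
  let E' := E.filter fun e => x e.1 ≠ x e.2
  have epos : ∀ e ∈ E', 0 < ‖x e.1 - x e.2‖ := fun e he =>
    norm_pos_iff.2 (sub_ne_zero.2 (mem_filter.1 he).2)
  let σ : α → ℝ := fun ω => ∑ e ∈ E', |x e.1 ω - x e.2 ω| ^ p / ‖x e.1 - x e.2‖ ^ p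
  have hσ0 : ∀ ω, 0 ≤ σ ω := fun ω => sum_nonneg fun e he => by
    have := epos e he; positivity
  have hdiff : ∀ i j, (fun ω => |x i ω - x j ω| ^ p) =ᵐ[μ] fun ω => |(x i - x j) ω| ^ p := by
    intro i j
    filter_upwards [Lp.coeFn_sub (x i) (x j)] with ω hω
    rw [hω]; rfl
  have hint : ∀ i j, Integrable (fun ω => |x i ω - x j ω| ^ p) μ ∧
      ∫ ω, |x i ω - x j ω| ^ p ∂μ = ‖x i - x j‖ ^ p := fun i j =>
    ⟨(norm_rpow_eq hp _).2.congr (hdiff i j).symm,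
      by rw [integral_congr_ae (hdiff i j), (norm_rpow_eq hp _).1]⟩
  have hσi : Integrable σ μ := integrable_finsetSum _ fun e _ => (hint _ _).1.div_const _
  have hσS : ∫ ω, σ ω ∂μ = (E'.card : ℝ) := by
    rw [integral_finsetSum _ fun e _ => (hint _ _).1.div_const _]
    calc _ = ∑ _e ∈ E', (1:ℝ) := sum_congr rfl fun e he => by
          rw [integral_div, (hint _ _).2, div_self (Real.rpow_pos_of_pos (epos e he) p).ne']
      _ = _ := by simp
  have edge : ∀ (u v : Fin n) ω, (u = v ∨ (u, v) ∈ E) →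
      |x u ω - x v ω| ≤ σ ω ^ (1/p) * D u v := by
    intro u v ω h
    have triv : u = v ∨ x u = x v → |x u ω - x v ω| ≤ σ ω ^ (1/p) * D u v := by
      rintro (rfl | h') <;> [skip; rw [h']] <;> simp <;>
        exact mul_nonneg (Real.rpow_nonneg (hσ0 ω) _) (norm_nonneg _)
    rcases eq_or_ne (x u) (x v) with hx | hx
    · exact triv (Or.inr hx)
    rcases h with h | h
    · exact triv (Or.inl h)
    have he : (u, v) ∈ E' := mem_filter.2 ⟨h, hx⟩
    have hd0 := epos _ he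
    have h1 : |x u ω - x v ω| ^ p / ‖x u - x v‖ ^ p ≤ σ ω :=
      single_le_sum (f := fun e : Fin n × Fin n =>
        |x e.1 ω - x e.2 ω| ^ p / ‖x e.1 - x e.2‖ ^ p)
        (fun e he => by have := epos e he; positivity) he
    rw [← Real.div_rpow (abs_nonneg _) hd0.le] at h1
    have h2 := Real.rpow_le_rpow (by positivity) h1 (by positivity : (0:ℝ) ≤ 1/p)
    rw [← Real.rpow_mul (by positivity), mul_one_div_cancel hp0.ne', Real.rpow_one,
      div_le_iff₀ hd0] at h2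
    exact h2
  have ptw : ∀ i j ω, |x i ω - x j ω| ^ p ≤ σ ω * (t ^ p * D i j ^ p) := by
    intro i j ω
    obtain ⟨w, h1, h2, h3⟩ := hspan i j
    have a1 := edge i w ω (h1.imp_left Eq.symm)
    have a2 := edge j w ω (Or.inr h2)
    have hD : 0 ≤ D i j := norm_nonneg _
    have h4 : |x i ω - x j ω| ≤ σ ω ^ (1/p) * (t * D i j) := by
      calc |x i ω - x j ω| ≤ |x i ω - x w ω| + |x w ω - x j ω| := abs_sub_le _ _ _
        _ ≤ σ ω ^ (1/p) * D i w + σ ω ^ (1/p) * D j w := by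
            rw [abs_sub_comm (x w ω)]; exact add_le_add a1 a2
        _ ≤ _ := by
            rw [← mul_add]; exact mul_le_mul_of_nonneg_left h3 (Real.rpow_nonneg (hσ0 ω) _)
    refine (Real.rpow_le_rpow (abs_nonneg _) h4 hp0.le).trans (le_of_eq ?_)
    rw [Real.mul_rpow (Real.rpow_nonneg (hσ0 ω) _) (by positivity), ← Real.rpow_mul (hσ0 ω),
      one_div_mul_cancel hp0.ne', Real.rpow_one, Real.mul_rpow (by linarith) hD]
  have hEne : 0 < E'.card := by
    obtain ⟨i, j, hij⟩ := hne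
    obtain ⟨w, h1, h2, -⟩ := hspan i j
    apply card_pos.2
    by_cases hjw : x j = x w
    · rcases h1 with rfl | h1
      · exact absurd hjw.symm hij
      · exact ⟨(i, w), mem_filter.2 ⟨h1, fun h => hij (h.trans hjw.symm)⟩⟩
    · exact ⟨(j, w), mem_filter.2 ⟨h2, hjw⟩⟩
  exact ⟨M, L, E'.card, σ, hMu, hLu, Nat.clog_pos one_lt_two hn, hEne,
    (card_filter_le _ _).trans (by simpa using hE), hσ0, hσi, hσS, hint, ptw⟩

/-- Coordinate sampling with a spanner gives almost linear dimension. -/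
theorem upper {p : ℝ} [Fact (1 ≤ ENNReal.ofReal p)] (hp : 1 ≤ p) {δ : ℝ} (hδ0 : 0 < δ)
    (hδ : δ ≤ 1/4) {n : ℕ} (hn : 2 ≤ n) (x : Fin n → Lp ℝ (ENNReal.ofReal p) μ) :
    ∃ (d : ℕ) (f : Fin n → Fin d → ℝ) (s : ℝ),
      (d : ℝ) ≤ 3 * 99 * 8 ^ p / δ ^ 2 * (n * Real.log n ^ (p + 3)) + 2 ∧
      0 < s ∧ ∀ i j, s * ‖x i - x j‖ ≤ (∑ l, |f i l - f j l| ^ p) ^ (1/p) ∧
        (∑ l, |f i l - f j l| ^ p) ^ (1/p) ≤ (1 + 8 * δ) ^ (1/p) * (s * ‖x i - x j‖) := by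
  classical
  have hp0 : 0 < p := by linarith
  set l := Real.log n with hl
  have l2 : (0.693:ℝ) < Real.log 2 := by have := Real.log_two_gt_d9; linarith
  have hln : Real.log 2 ≤ l := Real.log_le_log (by norm_num) (by exact_mod_cast hn)
  by_cases hne : ∃ i j, x i ≠ x j
  swap
  · push Not at hne
    refine ⟨0, fun _ => Fin.elim0, 1, ?_, one_pos, fun i j => ?_⟩
    · have : 0 ≤ l := by linarith
      simp only [CharP.cast_eq_zero]
      positivity
    · simp [hne i j, Real.zero_rpow hp0.ne', Real.zero_rpow (inv_pos.2 hp0).ne']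
  obtain ⟨M, L, S', σ, hMu, hLu, hL1, hS1, hSE', hσ0, hσi, hσS, hint, ptw⟩ :=
    exists_weight hp hn x hne
  let P := {e : Fin n × Fin n // x e.1 ≠ x e.2}
  have : Nonempty P := by obtain ⟨i, j, h⟩ := hne; exact ⟨⟨(i, j), h⟩⟩
  let D : Fin n → Fin n → ℝ := fun i j => ‖x i - x j‖
  obtain ⟨S, hSdef⟩ : ∃ S : ℝ, S = (S' : ℝ) := ⟨_, rfl⟩
  rw [← hSdef] at hσS
  obtain ⟨T, hTdef⟩ : ∃ T : ℝ, T = (2 * (L:ℝ) + 1) ^ p := ⟨_, rfl⟩
  rw [← hTdef] at ptw
  have hS1' : 1 ≤ S := by rw [hSdef]; exact_mod_cast hS1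
  have hS0 : 0 < S := by linarith
  have hT2 : 1 < T := by
    rw [hTdef]
    apply Real.one_lt_rpow _ hp0
    have : (1:ℝ) ≤ L := by exact_mod_cast hL1
    linarith
  have hT1 : 1 ≤ T := hT2.le
  let u : P → α → ℝ := fun e ω =>
    |x e.1.1 ω - x e.1.2 ω| ^ p / (σ ω * (T * D e.1.1 e.1.2 ^ p))
  have hN : ∀ e : P, 0 < D e.1.1 e.1.2 ^ p := fun e =>
    Real.rpow_pos_of_pos (norm_pos_iff.2 (sub_ne_zero.2 e.2)) p
  have hu1 : ∀ e ω, u e ω ≤ 1 := fun e ω =>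
    div_le_one_of_le₀ (ptw _ _ ω) (mul_nonneg (hσ0 ω) (mul_nonneg (by linarith) (hN e).le))
  have hmv : ∀ e : P, ∫ ω, σ ω * u e ω ∂μ = 1 / (T * S) * ∫ ω, σ ω ∂μ := by
    intro e
    have h : (fun ω => σ ω * u e ω) =
        fun ω => |x e.1.1 ω - x e.1.2 ω| ^ p / (T * D e.1.1 e.1.2 ^ p) := by
      funext ω
      rcases (hσ0 ω).eq_or_lt with h | h
      · have h' := ptw e.1.1 e.1.2 ω
        rw [← h, zero_mul] at h'
        have : |x e.1.1 ω - x e.1.2 ω| ^ p = 0 := le_antisymm h' (by positivity)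
        simp [u, this]
      · have := (hN e).ne'; have : T ≠ 0 := by linarith
        simp only [u]; field_simp
    rw [h, integral_div, (hint _ _).2, hσS]
    have := (hN e).ne'
    simp only [D] at this ⊢
    field_simp
  have hum : ∀ e, AEStronglyMeasurable (u e) μ := fun e =>
    ((hint _ _).1.aestronglyMeasurable.aemeasurable.div
      (hσi.aestronglyMeasurable.aemeasurable.mul_const _)).aestronglyMeasurable
  have hPc : (Fintype.card P : ℝ) ≤ (n:ℝ) * n := by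
    have : Fintype.card P ≤ n * n := (Fintype.card_subtype_le _).trans (by simp)
    exact_mod_cast this
  have hlogP : Real.log (2 * Fintype.card P) ≤ 3 * l := by
    have hn' : (2:ℝ) ≤ n := by exact_mod_cast hn
    calc Real.log (2 * Fintype.card P) ≤ Real.log ((n:ℝ) ^ 3) := by
          apply Real.log_le_log (by have : 0 < Fintype.card P := Fintype.card_pos; positivity)
          nlinarith [mul_le_mul_of_nonneg_right hn' (by positivity : (0:ℝ) ≤ (n:ℝ) * n)]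
      _ = _ := by rw [Real.log_pow]; norm_num; rw [hl]
  let d : ℕ := ⌈3 * l * (T * S) / δ ^ 2⌉₊ + 1
  have hd1 : 3 * l * (T * S) / δ ^ 2 ≤ d := by
    refine (Nat.le_ceil _).trans ?_
    simp [d]
  have hTS : 0 < T * S := mul_pos (by linarith) hS0
  obtain ⟨ω, hω, hw⟩ := sample u σ (fun e ω => div_nonneg (by positivity)
      (mul_nonneg (hσ0 ω) (mul_nonneg (by linarith) (hN e).le))) hu1 hum hσ0 hσi
    (m := 1 / (T * S)) (by positivity) (by rw [div_lt_one hTS]; nlinarith) (by rw [hσS]; exact hS0) hmv hδ0 (by linarith) d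
    (hlogP.trans (by
      rw [show δ ^ 2 * ((d:ℝ) * (1 / (T * S))) = δ ^ 2 * d / (T * S) by ring, le_div_iff₀ hTS]
      rw [div_le_iff₀ (by positivity)] at hd1
      linarith))
  refine ⟨d, fun i l => x i (ω l) * σ (ω l) ^ (-(1/p)),
    ((1 - 2*δ) * (d / S)) ^ (1/p), ?_, ?_, fun i j => ?_⟩
  · have hc : (d:ℝ) ≤ 3 * l * (T * S) / δ ^ 2 + 2 := by
      simp only [d, Nat.cast_add, Nat.cast_one]
      linarith [Nat.ceil_lt_add_one (by positivity : 0 ≤ 3 * l * (T * S) / δ ^ 2)]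
    have hSE : S ≤ ((L:ℝ) + 1) * (n * M) := by rw [hSdef]; exact_mod_cast hSE'
    exact dim_bound hp0 hδ0 l2 hln hLu (Nat.cast_nonneg _) (Nat.cast_nonneg _) hMu
      (Nat.cast_nonneg _) hS0.le hSE hTdef hc
  · apply Real.rpow_pos_of_pos
    have : (0:ℝ) < d := by simp [d]; positivity
    exact mul_pos (by linarith) (div_pos this hS0)
  · by_cases hij : x i = x j
    · simp [hij, Real.zero_rpow hp0.ne', Real.zero_rpow (inv_pos.2 hp0).ne']
    have := hw ⟨(i, j), hij⟩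
    exact ratio_bound hp0 hδ0.le hδ (norm_nonneg _) hT1 hS0 (d := d)
      (fun l => hω l) (fun l => u ⟨(i, j), hij⟩ (ω l)) (U := ∑ l, u ⟨(i, j), hij⟩ (ω l))
      rfl (fun l => rfl) (norm_pos_iff.2 (sub_ne_zero.2 hij)) this

end Vale.Agent.P249
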